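import Crest.Agent.X212.Gau76.Fam
import Crest.Agent.X212.Cqn41.Nr0
import Crest.Agent.X212.Num57.Nti
import Crest.Agent.X212.Sym93.Trp

/-!
# Row 212, NT-R, GAU (helper76): variations in the slice are not gauge directions
-/

set_option autoImplicit false
set_option linter.unusedSectionVars false
noncomputable section
open scoped Manifold ContDiff Topology InnerProductSpace
open MeasureTheory Set Function Filter

namespace Crest.Agent.X212.Gau76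
open An M Nd18 Mod61 Nk89 Cht98 Rf65 Rdc90 Pte3 Eqv71 Wrd81 Spl54 Nt66 Prm93
open Dr59 (dM)
open Wz78 (nab SA)

section job
variable {Wi : Type} {X : Mf 4} {A κ lam : Type} [Fintype A] [Fintype κ] [Fintype lam]
  [DecidableEq lam] {M : Mark X A κ} {W : World M} {N : ML M lam} {Λ : Lns W N}
  {A' h : Type} [Fintype A'] [DecidableEq A'] [Fintype h] {r n : ℕ}
  {J : Job Wi Λ A' h r n} {c : M.Cl} {σ : Cel A'} {δ : ℝ}
  {p : Prt A A' h} {U : Type} [Fintype U] {b : Bp J c} {E : EC b p U δ} {y : J.Obc c}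
  {x : Pnt E.o r} {ψ : E.K} {δ₀ : ℝ} {μ : Ed c → Option U} {P : Set (Reg A)}
  (H : CS σ E) (hy : J.Ov σ c y.s) (ch : E.Ch δ₀ σ μ y x ψ)
include H hy ch

/-- the slice of a chart at the point is equivalent to the limit -/
theorem eqv_ch {i : Ed c} (hi : i ∈ EdP c p.P) :
    (J.xs i.1).D.Eqv ((en E i).sl E.o (E.R + 1) x.t) (y.β i.1 i.2) := by
  have eo := ch.ok
  have bs := ch.go.bs i hi
  obtain ⟨u, ζ, e⟩ := ceq0 H.toPG hy ch
  have h1 := H.ok.act_end H.mem hy (Add46.act b i)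
  have h2 := H.ok.act_end H.mem (H.ovx x) (Add46.act b i)
  have g := kt H.toPG hy ch
  have a := ad0_of ch.go.adm
  have a' := (x0 x).ad0 H.F
  obtain ⟨d, k1, k2⟩ := ch.go.lim i hi h1
  have L := fun l (L : (J.K c i.1 _ _ h1).Lim y.x.con (y.β i.1 i.2) 1 l) =>
    (H.ok.end_eq h2 (Add46.act b i)).lim ((H.ok.end_eq h1 h2).lim_pre g.hB g.hG'
      (H.pok.agr H.ok H.mem hy (H.ovx x) (θ_eq ch.rep.s)) H.cl
      (H.ok.end_sub h1 H.pok.pc hi) bs.adm a' a (ceq_symm2 g.toLG H.cl.2 a a' e) L)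
  refine Add46.eqv_lim H.ee H.lit (a := i) ((H.act_iff _ _).2 hi) (y := x0 x) a'.adm0
    ⟨_, _, ceq_refl H.F.B (H.F.G _ x.ht) a' H.cl.2⟩ bs.adm (L _ (Add46.elim_lim (b := !i.2)
      (eo.d0.trans k1) ?_))
  obtain ⟨_, _ | _⟩ := i
  exacts [k2, k2]

theorem dz_ch {i : Ed c} (hi : i ∈ EdP c p.P) :
    dz (J.xs i.1).D ((en E i).sl E.o (E.R + 1) x.t) = dz (J.xs i.1).D (y.β i.1 i.2) :=
  have bs := ch.go.bs _ hi
  have := J.conn_xs i.1
  Sym93.dz_eqv bs.ok ((H.eo.lit i).adm H.F (H.ee.okP _) H.eo.R5 x.ht) bs.adm (eqv_ch H hy ch hi)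

/-- **GAU on a sub-part with one end** -/
theorem gau_ch (h1 : P ⊆ p.P) (sc : SC (W.un c P))
    (hz : ∀ i ∈ EdP c P, dz (J.xs i.1).D (y.β i.1 i.2) = 1) (one : (EdP c P).Subsingleton)
    {ξ : (W.Z c).M → E.o.m.A}
    (rd : Loc8.Rd (J.G c (b.θ p U x.t)).F E.o.m x.cfg.W (W.un c P) ξ)
    {α : (W.Z c).M → Fm (Option κ) E.o.m.A}
    (hα : α ∈ Mod61.Hs (b.F p U δ).F0.toPre (rf E x.t P ∅ ∅).P1) (ne : α ≠ 0)
    (hr : row 8 (rx H x h1 (empty_subset _) ∅) (ofV _ 9 _ α, 0) = 0) {a}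
    (ha : Qab60.Fo (W.Z c).I 1 a) (hd : ∀ z ∈ W.un c P, dM (W.Z c).I a z = 0)
    (ab : ∀ z ∈ W.un c P, ∀ j, ⟪idx ((b.F p U δ).S x.t z) (.id ℝ _) (α z) j -
      Qab60.c1 (J.G c (b.θ p U x.t)).F a z j • ξ z, ξ z⟫_ℝ = 0) :
    NG (J.G c (b.θ p U x.t)).F x.cfg (W.un c P) ξ
      fun z => idx ((b.F p U δ).S x.t z) (.id ℝ _) (α z) := fun ⟨η, hη⟩ => by
  have G := Nti57.pg_sp H.toPG h1 (empty_subset P)
  have eo := Nti57.ok_res (P := P) (P' := ∅) H ch.z x.ht ∅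
  have e : ∀ w ∈ W.un c P, ∀ a,
      (rx H x h1 (empty_subset _) ∅).cfg.W a w = x.cfg.W a w := fun w hw a => by
    refine congrArg₂ (· + ·) ?_ (congrArg (fun v => opL (idx _ _ v a)) (indicator_of_mem hw _))
    rw [(rf E x.t P ∅ ∅).A_eq]
    rfl
  have e' : ∀ w ∈ W.un c P, ∀ a (u : _ → E.o.m.A),
      nab (W.Z c).I (J.G c (b.θ p U x.t)).F.e (E.o.m.adW (rx H x h1 (empty_subset _) ∅).cfg.W) a u w =
      nab (W.Z c).I (J.G c (b.θ p U x.t)).F.e (E.o.m.adW x.cfg.W) a u w := fun w hw a u =>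
    congrArg (fun T => _ + adc T (u w)) (e w hw a)
  refine gauF (G.ends U b eo.d0 eo.d1) (o := rf E x.t P ∅ ∅) ⟨eo.R5, eo.lit⟩
    (rx H x h1 (empty_subset _) ∅) (fun w _ => ?_)
    ⟨⟨rd.sm, rd.mem, rd.sq, fun w hw a => (e' w hw a ξ).trans (rd.par w hw a)⟩, rd.op, rd.off⟩ sc
    (fun i k => ?_) (fun i i' k k' => one ((G.act_iff _ _).1 k) ((G.act_iff _ _).1 k')) hα ne hr ha
    hd ab ⟨η, fun w hw => ⟨(hη w hw).1, (hη w hw).2.1, (hη w hw).2.2.1, fun a =>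
      (congrArg (· + _) (e' w hw a η)).trans ((hη w hw).2.2.2 a)⟩⟩
  · exact (zero_add _).trans (indicator_of_notMem (fun k => (biUnion_empty _).le k) _)
  · obtain ⟨π, k1, k2⟩ := (G.act_iff _ _).1 k
    have s := Nti57.sl_rf (P := P) (P' := ∅) H ch.z x.ht ∅ i (H.eo.R5.trans_lt (lt_add_one _)) x.ht
    exact (congrArg (Rf65.dz (J.xs i.1).D) s).trans ((dz_ch H hy ch ⟨π, h1 k1, k2⟩).trans (hz i ⟨π, k1, k2⟩))

end job

theorem edp_hp {X : Mf 4} {A κ : Type} [Fintype A] [Fintype κ] {M : Mark X A κ} {c : M.Cl} {R : A}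
    {d : Bool} {i : Ed c} (k : i ∈ EdP c {hp R d}) : i.1.1 = R ∧ i.2 = d := by
  obtain ⟨_, rfl, k⟩ := k
  unfold hp at k
  split_ifs at k with e
  exact ⟨e, (Option.some.inj k).symm⟩

section scene
open G75 Ins26 Jb7 Nr41 Qab60
variable {κ lam : Type} [Fintype κ] [Fintype lam] [DecidableEq lam] (Lm : LM κ lam)

/-- **NT-R GAU** -/
theorem gau : All Lm Gau := fun _ D _ _ _ _ J c _ _ => ⟨1, one_pos,
  fun _ _ _ R b E _ y x _ ξ C _ _ α hα ne hr a ha hd ab => by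
  have e : D.W.un c {hp R false} = oI D.W c R := un_one _ _ _
  have rd := C.ins.ab.rd
  have sc := C.ins.sc
  rw [← C.θ, ← e] at ab rd ⊢
  rw [← e] at sc hd
  refine gau_ch C.cs (C.θ ▸ C.cs.ovx x) C.ch Nr41.sub_in sc (fun i k => ?_)
    (fun i k i' k' => Prod.ext (Subtype.ext ((edp_hp k).1.trans (edp_hp k').1.symm))
      ((edp_hp k).2.trans (edp_hp k').2.symm)) rd hα ne hr ha hd ab
  obtain ⟨⟨_, _⟩, _⟩ := i
  obtain rfl := (edp_hp k).1
  exact C.dz _⟩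

end scene
end Crest.Agent.X212.Gau76
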