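import Crest.Agent.X212.Abx52.Ng1
import Crest.Agent.X212.Qab60.Frm
import Crest.Agent.X212.Rf65.Rs
import Crest.Agent.X212.Loc8.Red

/-! # Row 212, NTR-GAU (helper76): slice directions with closed abelian part are not gauge -/

set_option autoImplicit false
set_option linter.unusedSectionVars false
noncomputable section
open scoped Manifold ContDiff Topology InnerProductSpace
open MeasureTheory Set Function Filter
open Crest.Agent.R208.F (Ext)

namespace Crest.Agent.X212.Gau76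
open An An.Pre Sob92 Prm93 Mod61 Nd18 Nk89 Ker54 Wz78
open Grp76 (Nice hs_iff Pg_iff)
open Rf65 (dz SC)
open Qab60 (Fo c1)
open Dr59 (dM)

variable {E : Type} [NormedAddCommGroup E] [NormedSpace ℝ E] [FiniteDimensional ℝ E]
  [MeasurableSpace E] [BorelSpace E]
  {HM : Type} [TopologicalSpace HM] {I : ModelWithCorners ℝ E HM} [I.Boundaryless]
  {M : Type} [TopologicalSpace M] [ChartedSpace HM M] [IsManifold I ∞ M]
  [MeasurableSpace M] [T2Space M] [BorelSpace M] [SecondCountableTopology M]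

section gen
variable {ι lam : Type} [Fintype ι] [Fintype lam]

/-- closed forms on simply connected sets are exact -/
theorem prim (F : Fr I M ι) {O : Set M} (hO : IsOpen O) (sc : SC O) {a : M → Ext E} (ha : Fo I 1 a)
    (hd : ∀ z ∈ O, dM I a z = 0) : ∃ g : M → ℝ, ∀ z ∈ O, SA I g z ∧ ∀ i, F.D i g z = c1 F a z i := by
  rcases O.eq_empty_or_nonempty with rfl | ⟨x, hx⟩
  · exact ⟨0, fun _ k => k.elim⟩
  have c : Dfl49.Clo F O (fun _ _ => 0) (fun _ => .id ℝ ℝ) (Num57.k1 F a) :=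
    { op := hO, sA := fun _ _ _ => contMDiffAt_const, pA := fun _ _ _ => by simp
      sQ := fun _ _ => contMDiffAt_const, nQ := fun _ _ _ => by simp [nabE]
      cQ := fun _ _ _ _ => by simp [curv], sα := fun i z _ => Num57.sa_k1 F (ha.sm z) i
      pα := fun i z _ => Num57.k1_P F a i z, qα := fun _ _ _ => rfl
      cl := fun i j z hz => by
        have := Num57.k2_dM F (ha.sm z) (.of_forall ha.dg) i j
        rw [show Num57.k2 F (dM I a) i j z = 0 from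
          congrArg (· (i, j)) (Qab60.c2_of_zero (F := F) (hd z hz))] at this
        simpa [Rdc90.ed, nab, Pre.D_def] using this.symm }
  obtain ⟨W, h1, h2, -, h4⟩ := c.exists_loc hx
  obtain ⟨s, -, k⟩ := h4 x (mem_of_mem_nhds h1) 0 rfl
  obtain ⟨g, k1, -⟩ := sc.2 x hx ℝ _ c.ls s fun y hy => hy ▸ mem_of_superset h1 k
  exact ⟨g, fun z hz => ⟨(k1 z hz).self_of_nhds.sm, fun i => by
    simpa [nab, Pre.D_def, Qab60.c1] using (k1 z hz).self_of_nhds.eq i⟩⟩

variable {B : Base M ι lam} {F : Fr I M ι} {m : Md M ι lam} {W : m.Cn} {ξ η : M → m.A} {g : M → ℝ}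
  {x : M} {O : Set M}

/-- the primitive of a gauge direction -/
theorem nab_prim (hB : B.OK I) (H : m.OK I B) (R : Abel74.RedOn F m W O ξ) (hx : x ∈ O)
    (sη : SA I η x) (sg : SA I g x) {v : m.A} (hv : v ∈ m.gS x) (i : ι)
    (e : nab I F.e (m.adW W) i η x + adc (opL v) (ξ x) = 0) (o : ⟪v - F.D i g x • ξ x, ξ x⟫_ℝ = 0) :
    nab I F.e (m.adW W) i (fun z => g z • ξ z - (1 / 4 : ℝ) • adc (opL (ξ z)) (η z)) x = v := by
  have s := R.sm x hx
  have sJ : SA I (fun z => adc (opL (ξ z))) x := s.clm (adcL ∘L opL)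
  have p : nabE I F.e (m.adW W) i (fun x => adc (opL (ξ x))) x = 0 := by
    refine (nab_map (A := fun a y => ad _ (W a y)) (A' := fun a y => ad _ (m.adW W a y)) adcL i
      (adc_lie _ _).symm (SA.clm opL s)).trans ?_
    have := opL_nab (e := F.e) (W := W) i s
    rw [R.par x hx, map_zero] at this
    exact (congrArg adcL this).trans (map_zero _)
  have q : adc (opL v) (ξ x) = -adc (opL (ξ x)) v := by simp [adc_apply]
  have n := Abel74.norm_sq H (R.mem x hx) (R.sq x hx)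
  rw [inner_sub_left, real_inner_smul_left, real_inner_self_eq_norm_sq, n, sub_eq_zero,
    real_inner_comm] at o
  rw [nab_sub i (sg.smul s) (SA.smul contMDiffAt_const (sJ.app sη)), nab_smul i sg s, R.par x hx,
    nab_csmul i _ (sJ.app sη), nab_app' i sJ sη, p, eq_neg_of_add_eq_zero_left e, q, neg_neg,
    Std94.adc_adc hB (Std94.pmx H x) (R.mem x hx) hv, n, o, ← Pre.D_def F.toPre]
  simp only [zero_apply]
  module

end gen

variable {κ : Type} [Fintype κ] {lam : Type} [Fintype lam]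
  {T : Type} [NormedAddCommGroup T] [NormedSpace ℝ T]
  {𝔉 : Fam I M (Option κ) lam T} {δ R : ℝ} {o : Ref 𝔉} {r : ℕ} {ξ ζ : M → o.m.A}
  {α : M → Fm (Option κ) o.m.A}

/-- gauge directions in the slice vanish -/
theorem zero_of_row (h : 𝔉.OK) (y : Pnt o r) (hΦ : ∀ x ∈ 𝔉.Om, y.cfg.Φ x = 0)
    (hζ : ζ ∈ Hs 𝔉.F0.toPre o.Pg) (hα : α ∈ Hs 𝔉.F0.toPre o.P1) (e : ∀ a x, n0 y ζ a x = α x a)
    (hr : row 8 y (ofV _ 9 _ α, 0) = 0) : α = 0 := by
  have A := Map77.adj_rem h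
  have hd := Gb54.isD (k := 8) h (by norm_num) y
  generalize (Gb54.gbM o h _ r).d (y.pt 8) = d at hd
  have H := A.hy o y.ht
  have S := h.sup
  have v : 𝔉.F0.val 10 o.Pg (ofV _ 10 _ (-ζ)) = -ζ := val_ofV (neg_mem hζ) (by norm_num)
  generalize ofV 𝔉.F0.toPre 10 o.Pg (-ζ) = u at v
  have a1 : ∀ x a, 𝔉.F0.val 9 o.P1 (d u).1 x a = α x a := fun x a => by
    rw [hd.a, v, ← e]
    exact (congrArg Neg.neg (nab_neg a ζ)).trans (neg_neg _)
  have e1 : (d u).1 = ofV _ 9 _ α := val_injective S (by norm_num : 4 ≤ 9)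
    ((funext fun x => PiLp.ext (a1 x)).trans (val_ofV hα (by norm_num)).symm)
  have e2 : (d u).2.1 = 0 := val_injective S (by norm_num : 4 ≤ 9) ((funext fun x => by
    rw [hd.s, v]
    by_cases k : x ∈ 𝔉.Om
    · exact (congrArg _ (hΦ x k)).trans (map_zero _)
    · rw [Pi.neg_apply, ((Pg_iff h x _).1 (((hs_iff h).1 hζ).2 x)).2 k]; simp).trans val_zero.symm)
  have e3 : (Map77.sig (Fs 𝔉) 8 y ∘L d) u = 0 := by
    rw [← hr, ← e1, ← e2]; rfl
  rw [A.sig_d (by norm_num) hd] at e3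
  have e4 := H.toTw.LL_eq_zero (H.nc_d0 (Map77.cb_uy h y)) (H.cliffL_d0 H.P _) u e3
  have e5 : d u = 0 := Map77.sC_inj h y.ht (((DFunLike.congr_fun (A.sC_d (by norm_num) hd) u).trans
    e4).trans (map_zero _).symm) (hd.z u)
  refine funext fun x => PiLp.ext fun a => ?_
  rw [← a1, e5, Prod.fst_zero, val_zero]

/-- **GAU** at the level of families -/
theorem gauF (X : Ends 𝔉 δ) (hl : X.Lit o R) (y : Pnt o r) (hΦ : ∀ x ∈ 𝔉.Om, y.cfg.Φ x = 0)
    (rd : Loc8.Rd (𝔉.G y.t).F o.m (o.W y.t y.α) 𝔉.Om ξ) (sc : SC 𝔉.Om)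
    (hz : ∀ a, X.Act a → dz (X.P a).D ((X.P a).sl o (R + 1) y.t) = 1)
    (one : ∀ a a', X.Act a → X.Act a' → a = a') (hα : α ∈ Hs 𝔉.F0.toPre o.P1) (ne : α ≠ 0)
    (hr : row 8 y (ofV _ 9 _ α, 0) = 0) {a : M → Ext E} (ha : Fo I 1 a)
    (hd : ∀ z ∈ 𝔉.Om, dM I a z = 0) (ab : ∀ z ∈ 𝔉.Om, ∀ j,
      ⟪idx (𝔉.S y.t z) (.id ℝ _) (α z) j - c1 (𝔉.G y.t).F a z j • ξ z, ξ z⟫_ℝ = 0) :
    ¬∃ η : M → o.m.A, ∀ x ∈ 𝔉.Om, SA I η x ∧ η x ∈ o.m.gS x ∧ ⟪η x, ξ x⟫_ℝ = 0 ∧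
      ∀ i, nab I (𝔉.G y.t).F.e (o.m.adW (o.W y.t y.α)) i η x +
        adc (opL (idx (𝔉.S y.t x) (.id ℝ _) (α x) i)) (ξ x) = 0 := by
  rintro ⟨η, hη⟩
  have h := X.ok
  have O := h.Om
  obtain ⟨n1, n2⟩ := (hs_iff h).1 hα
  obtain ⟨g, hg⟩ := prim (𝔉.G y.t).F O.2 sc ha hd
  have z0 : ∀ {f : M → o.m.A}, (∀ x ∉ 𝔉.Om, f x = 0) → ∀ a, ∀ x ∉ 𝔉.Om, n0 y f a x = 0 :=
    fun hf a x hx => by
      rw [n0, nab_congr (v := fun _ => 0) a ((O.1.isOpen_compl.eventually_mem hx).mono hf)]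
      simp [nab]
  have a0 : ∀ x a, α x a = ∑ b, 𝔉.B.P a b x • o.Pg x (α x b) := fun x a =>
    (congrArg (· a) (n2 x)).symm.trans (idx_apply _ _ _ _)
  have am : ∀ x a, α x a ∈ o.m.gS x := fun x a => a0 x a ▸ sum_mem fun b _ =>
    Submodule.smul_mem _ _ ((Pg_iff h x _).1 (Grp76.Pg_Pg h x _)).1
  set f := fun z => g z • ξ z - (1 / 4 : ℝ) • adc (opL (ξ z)) (η z)
  have sf : ∀ x ∈ 𝔉.Om, SA I f x := fun x hx => ((hg x hx).1.smul (rd.sm x hx)).sub
    (SA.smul contMDiffAt_const (((rd.sm x hx).clm (adcL ∘L opL)).app (hη x hx).1))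
  have mf : ∀ x ∈ 𝔉.Om, f x ∈ o.m.gS x := fun x hx => sub_mem (Submodule.smul_mem _ _ (rd.mem x hx))
    (Submodule.smul_mem _ _ (adc_mem (rd.mem x hx) (hη x hx).2.1))
  have e : ∀ a x, n0 y (𝔉.Om.indicator f) a x = α x a := fun a x => by
    by_cases hx : x ∈ 𝔉.Om
    · have k : ∀ i, nab I (𝔉.G y.t).F.e (o.m.adW (o.W y.t y.α)) i f x =
          ∑ b, 𝔉.S y.t x i b • α x b := fun i =>
        (nab_prim h.B o.ok rd.toRedOn hx (hη x hx).1 (hg x hx).1 (by
          rw [idx_apply]; exact sum_mem fun b _ => Submodule.smul_mem _ _ (am x b)) i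
          ((hη x hx).2.2.2 i) (by rw [(hg x hx).2]; exact ab x hx i)).trans (idx_apply _ _ _ _)
      rw [n0, nab_congr a (Grp76.ind_ev O.2 hx f), ← n0, n0_eq h (mf x hx)]
      simp only [k, Finset.smul_sum, smul_smul]
      rw [Finset.sum_comm]
      simp only [← Finset.sum_smul, h.SiS _ y.ht]
      refine .trans (Finset.sum_congr rfl fun b _ => ?_) (a0 x a).symm
      rw [(Pg_iff h x _).2 ⟨am x b, fun k => (k hx).elim⟩]
    · rw [z0 (fun x k => indicator_of_notMem k _) a x hx, a0]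
      simp [Ref.Pg, hx]
  have sξ : Sm I ξ := (indicator_eq_self.2 fun x k => by_contra fun k' => k (rd.off x k')) ▸
    Grp76.sm_ind O rd.sm
  have pξ : ∀ a x, n0 y ξ a x = 0 := fun a x => by
    by_cases hx : x ∈ 𝔉.Om
    · simp only [n0_eq h (rd.mem x hx), rd.par x hx, smul_zero, Finset.sum_const_zero]
    · exact z0 rd.off a x hx
  have sζ := Grp76.sm_ind O sf
  obtain ⟨c, hc⟩ := Ng52.endL X y sζ (fun a => funext (e a) ▸ n1.clm (Grp76.pj _ a)) hl
    (fun x => (Pg_iff h x _).2 ⟨by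
      by_cases hx : x ∈ 𝔉.Om
      · rw [indicator_of_mem hx]; exact mf x hx
      · rw [indicator_of_notMem hx]; exact zero_mem _, fun k => indicator_of_notMem k _⟩) sξ
    (fun x => (Pg_iff h x _).2 ⟨(em _).elim (rd.mem x) fun k => rd.off x k ▸ zero_mem _, rd.off x⟩) pξ
    (fun x hx => by
      rw [← sq_eq_sq₀ (norm_nonneg _) (by norm_num), Abel74.norm_sq o.ok (rd.mem x hx) (rd.sq x hx)]
      norm_num) hz one
  refine ne (zero_of_row h y hΦ hc hα (fun a x => ?_) hr)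
  rw [sub_eq_add_neg, ← neg_smul, n0_add (η := -c • ξ) (SA.md (sζ x)) (SA.md (SA.smul contMDiffAt_const (sξ x))),
    n0_smul (SA.md (sξ x)), pξ, smul_zero, add_zero, e]

end Crest.Agent.X212.Gau76
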